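import Crest.Agent.X262.Qt.Loc
import Crest.Agent.X277.BD.BrA
import Crest.Agent.X277.BD.Cyc
import Crest.Agent.X277.Pst.Defs

/-!
# Row 262, QT (helper42): statements

* `kf O V`    : the residue field of `O` inside the residue field of `V`;
* `SmZ P O n c` : `O` is the local ring of a smooth closed subvariety of codimension `c` of `P`;
* `QtAt`, `QtStmt` : an exceptional divisor is `ord_O` with `O` regular of dimension two, and the
  discrepancy orders these data;
* `RfStmt`    : the residue field of `ord_O` is `k(O)(u)`;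
* `ModelStmt` : `O` is the local ring of a smooth subvariety of a smooth higher model which
  carries finitely many given divisors.
-/

set_option autoImplicit false

noncomputable section

namespace Crest.Agent.X262.Qt

open Crest.Agent.X277 Crest.Agent.X277.Lef Crest.Agent.X277.BD Crest.Agent.X277.BD.Br
open Crest.Agent.X277.BD.Cyc (Rf plV)
open Crest.Agent.X277.Pst (Prm Dvs)
open Crest.Agent.X277.AN.G1 (Pts lp)
open Crest.Agent.X277.Res.Out (Un Van Coords)
open Crest.Agent.X277.Res.Out.Lb (Cen)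
open scoped KaehlerDifferential

/-- the residue field of `O` inside the residue field of `V` -/
def kf {k F : Type} [Field k] [Field F] [Algebra k F] (O : Subalgebra k F) (V : RZ k F) :
    IntermediateField k (Rf V) :=
  IntermediateField.adjoin k ((plV V).r '' (O : Set F))

variable {F : Type} [Field F] [Algebra ℂ F]

/-- `O` is the local ring of the closed subvariety `Z = {x | O_x ≤ O}` of `P`, and `Z` is smooth
of codimension `c` -/
structure SmZ (P : PModel ℂ F) (O : Subalgebra ℂ F) (n c : ℕ) : Prop where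
  ne : ∃ x : Pts P, (lp x).O ≤ O
  loc : ∀ x : Pts P, (lp x).O ≤ O → ∀ f ∈ O, ∃ b ∈ (lp x).O, Un O b ∧ b * f ∈ (lp x).O
  crd : ∀ x : Pts P, (lp x).O ≤ O → ∃ (t : Fin n → F) (σ : Fin c → Fin n),
    Coords (lp x).O t ∧ Function.Injective σ ∧
      ∀ a ∈ (lp x).O, Van O a ↔ a ∈ Submodule.span (lp x).O (Set.range (t ∘ σ))

/-- the local ring at the centre of `V` of the model with affine chart `P.A i [U]` -/
def ring (P : PModel ℂ F) (i : Fin (P.N + 1)) (U : Finset F) (V : RZ ℂ F) : Subalgebra ℂ F :=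
  lv (adj (P.A i) U) V.1

/-- the data for one exceptional divisor `E`; `a` is the discrepancy -/
structure QtAt (P : PModel ℂ F) (a : RZ ℂ F → ℕ) (E : RZ ℂ F) (i : Fin (P.N + 1)) (U : Finset F)
    (t : Fin 2 → F) (Pd : Finset (RZ ℂ F)) : Prop where
  chart : ∀ x ∈ P.A i, x ∈ E.1
  mem : ∀ u ∈ U, u ∈ E.1
  ord : Ord2 (ring P i U E) t E.1
  dom : ∀ W : RZ ℂ F, Dvs W → Dom W.1 (ring P i U E) → W = E ∨ a E < a W
  prm : ∀ W : RZ ℂ F, Prm (oP P) W → ¬ Dom W.1 (ring P i U E)
  cen : ∀ W : RZ ℂ F, W.1 ≠ ⊤ → Cen W.1 (ring P i U E) → Prm (oP P) W ∨ W ∈ Pd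
  pd : ∀ W ∈ Pd, Dvs W ∧ ¬ Prm (oP P) W ∧ a W < a E

/-- **Zariski, Abhyankar.** -/
def QtStmt : Prop :=
  ∀ (F : Type) [Field F] [Algebra ℂ F] (P : PModel ℂ F), ∃ a : RZ ℂ F → ℕ,
    ∀ E : RZ ℂ F, Dvs E → ¬ Prm (oP P) E → ∃ i U t Pd, QtAt P a E i U t Pd

/-- the residue field of `ord_O` -/
def RfStmt : Prop :=
  ∀ (k F : Type) [Field k] [Field F] [Algebra k F] (O : Subalgebra k F) (t : Fin 2 → F)
    (V : RZ k F), Ord2 O t V.1 → ∃ e : Rf V ≃ₐ[k] RatFunc (kf O V),
      (∀ x : kf O V, e x = RatFunc.C x) ∧ e ((plV V).r (t 1 / t 0)) = RatFunc.X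


end Crest.Agent.X262.Qt
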