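import Crest.Agent.X262.Qt.Loc
import Crest.Agent.X262.Qt.Defs

-- ▼ part X262/Qt/Step
section

/-!
# Row 262, QT (helper42), part 1: blowing up two parameters along a valuation

* `Reg.step` : `O [y / x]` localised at the centre of `V` is again regular;
* `Good`, `Reg.good` : after finitely many steps one reaches a discrete valuation ring `V` which
  is a localisation of a finitely generated algebra; the last ring has dimension two.
-/

set_option autoImplicit false

noncomputable section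

namespace Crest.Agent.X262.Qt

open Crest.Agent.X277.Res.Out Crest.Agent.X277.Res.Out.Lb Polynomial

variable {k F : Type} [Field k] [Field F] [Algebra k F]
variable {O : Subalgebra k F} {V : ValuationSubring F} {u : F}

theorem val_mul_lt {x y : F} (hx : V.valuation x < 1) (hy : y ∈ V) : V.valuation (x * y) < 1 := by
  rw [map_mul]
  exact mul_lt_one_of_nonneg_of_lt_one_left zero_le hx (val_le hy)

theorem aeval_eq_sum (q : O[X]) (u : F) :
    aeval u q = ∑ i ∈ Finset.range (q.natDegree + 1), (q.coeff i : F) * u ^ i := by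
  rw [aeval_eq_sum_range]
  exact Finset.sum_congr rfl fun i _ => Algebra.smul_def _ _

/-- below the degree of the minimal equation there is no relation -/
theorem coeff_lt (h : Dom V O) (hu : u ∈ V) (N : ℕ)
    (hmin : ∀ p : O[X], p.Monic → p.natDegree < N → ¬ V.valuation (aeval u p) < 1) :
    ∀ q : O[X], q.degree < N → V.valuation (aeval u q) < 1 →
      ∀ i, V.valuation (q.coeff i : F) < 1 := by
  induction N with
  | zero =>
    intro q hq _ i
    rw [Nat.cast_zero, Nat.WithBot.lt_zero_iff, degree_eq_bot] at hq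
    simp [hq]
  | succ N ih =>
    intro q hq hv
    have hq' : q.degree ≤ N := by
      rw [degree_le_iff_coeff_zero]
      exact fun m hm => coeff_eq_zero_of_degree_lt
        (hq.trans_le (by exact_mod_cast Nat.succ_le_of_lt (by exact_mod_cast hm)))
    have hc : V.valuation (q.coeff N : F) < 1 := by
      by_contra hc
      have h1 : V.valuation (q.coeff N : F) = 1 :=
        le_antisymm (val_le (h.le _ (q.coeff N).2)) (not_lt.1 hc)
      let c : O := ⟨_, h.inv _ (q.coeff N).2 h1⟩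
      have h2 : c * q.coeff N = 1 := Subtype.ext (inv_mul_cancel₀ (ne_of_val h1))
      have h3 : (C c * q).natDegree ≤ N :=
        (natDegree_C_mul_le c q).trans (natDegree_le_iff_degree_le.2 hq')
      refine hmin (C c * q) (monic_of_natDegree_le_of_coeff_eq_one N h3 (by rw [coeff_C_mul, h2]))
        (Nat.lt_succ_of_le h3) ?_
      rw [map_mul, aeval_C, mul_comm]
      exact val_mul_lt hv (h.le _ c.2)
    have h4 := ih (fun p hp hN => hmin p hp (Nat.lt_succ_of_lt hN))
      (q - monomial N (q.coeff N)) ?_ ?_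
    · intro i
      by_cases hi : N = i
      · rwa [← hi]
      · simpa [coeff_monomial, hi] using h4 i
    · rw [degree_lt_iff_coeff_zero]
      intro m hm
      rw [coeff_sub, coeff_monomial]
      split_ifs with h5
      · rw [h5, sub_self]
      · rw [sub_zero]
        exact coeff_eq_zero_of_degree_lt (hq'.trans_lt (by exact_mod_cast lt_of_le_of_ne hm h5))
    · rw [map_sub, aeval_monomial]
      exact V.valuation.map_sub_lt hv (val_mul_lt hc (pow_mem hu N))

/-- the residue of `u` is transcendental, or has a separable minimal equation -/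
theorem tr_or [CharZero k] (h : Dom V O) (hu : u ∈ V) : Tr O V u ∨ ∃ p : O[X],
    V.valuation (aeval u p) < 1 ∧ V.valuation (aeval u (derivative p)) = 1 ∧
    ∀ q : O[X], V.valuation (aeval u q) < 1 → ∃ a r : O[X], q = r + p * a ∧
      ∀ i, V.valuation (r.coeff i : F) < 1 := by
  classical
  by_cases hex : ∃ N, ∃ p : O[X], p.Monic ∧ p.natDegree = N ∧ V.valuation (aeval u p) < 1
  · right
    obtain ⟨p, hp, hN, hv⟩ := Nat.find_spec hex
    have hmin := coeff_lt h hu (Nat.find hex) fun q hq hd hv' =>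
      Nat.find_min hex hd ⟨q, hq, rfl, hv'⟩
    have hdeg : p.degree = Nat.find hex := by rw [degree_eq_natDegree hp.ne_zero, hN]
    have hadj : ∀ q : O[X], aeval u q ∈ V := fun q =>
      adj_le_val h.le (by rintro _ rfl; exact hu) _ (aeval_mem_adj q u)
    refine ⟨p, hv, ?_, fun q hq => ⟨q /ₘ p, q %ₘ p, (modByMonic_add_div q p).symm, ?_⟩⟩
    · refine le_antisymm (val_le (hadj _)) (not_lt.1 fun hlt => ?_)
      obtain ⟨d, hd⟩ : ∃ d, p.natDegree = d + 1 := by
        refine Nat.exists_eq_succ_of_ne_zero fun h0 => ?_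
        rw [hp.natDegree_eq_zero.1 h0, map_one, map_one] at hv
        exact lt_irrefl _ hv
      have h1 := hmin _ (hdeg ▸ degree_derivative_lt hp.ne_zero) hlt d
      rw [coeff_derivative, ← hd, hp.coeff_natDegree, one_mul] at h1
      have h2 : (((d : O) + 1 : O) : F) = algebraMap k F ((d : k) + 1) := by simp
      have h3 : (d : k) + 1 ≠ 0 := Nat.cast_add_one_ne_zero d
      rw [h2, val_eq_one ((_root_.map_ne_zero _).2 h3) (h.le _ (O.algebraMap_mem _))
        (by rw [← map_inv₀]; exact h.le _ (O.algebraMap_mem _))] at h1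
      exact lt_irrefl _ h1
    · refine hmin _ (hdeg ▸ degree_modByMonic_lt q hp) ?_
      rw [eq_sub_of_add_eq (modByMonic_add_div q p), map_sub, map_mul]
      exact V.valuation.map_sub_lt hq (val_mul_lt hv (hadj _))
  · exact Or.inl fun q => coeff_lt h hu (q.natDegree + 1) (fun p hp _ hv => hex ⟨_, p, hp, rfl, hv⟩)
      q (degree_le_natDegree.trans_lt (by exact_mod_cast Nat.lt_succ_self _))

theorem val_der_aeval {D : Derivation k F F} (hu : u ∈ V) (hD : ∀ c ∈ O, V.valuation (D c) < 1)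
    (q : O[X]) : V.valuation (D (aeval u q) - aeval u (derivative q) * D u) < 1 := by
  induction q using Polynomial.induction_on' with
  | add p q hp hq =>
    have h1 := V.valuation.map_add_lt hp hq
    rw [map_add, map_add, map_add, map_add]
    convert h1 using 2
    ring
  | monomial m c =>
    rw [derivative_monomial, aeval_monomial, aeval_monomial, Derivation.leibniz,
      Derivation.leibniz_pow]
    have h1 := val_mul_lt (hD c c.2) (pow_mem hu m)
    convert h1 using 2
    simp only [map_mul, map_natCast, smul_eq_mul, nsmul_eq_mul, Subalgebra.algebraMap_apply]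
    ring

variable {n : ℕ} {z : Fin n → F} {S : Finset (Fin n)}

/-- two frames with the same coordinates have the same derivations on the fraction field; here we
only need the derivation dual to `y / x` -/
theorem exists_blow_der (h : Fr O z) {l₀ l₁ : Fin n} (hl : l₀ ≠ l₁) :
    ∃ d, Dual (adj O {z l₁ / z l₀}) (Function.update z l₁ (z l₁ / z l₀)) d ∧
      ∀ c ∈ O, d l₁ c / z l₀ ∈ O := by
  have h0 := h.ne_zero l₀
  obtain ⟨D, hD⟩ := h.blow hl
  obtain ⟨d, h⟩ := h
  have h1 : ∀ j, (z l₀ • d l₁) (Function.update z l₁ (z l₁ / z l₀) j) = if l₁ = j then 1 else 0 := by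
    intro j
    by_cases hj : j = l₁
    · rw [hj, Function.update_self, Derivation.smul_apply, Derivation.leibniz_div, h.self,
        h.of_ne hl.symm, if_pos rfl]
      simp only [smul_eq_mul]
      field_simp
      simp
    · rw [Function.update_of_ne hj, Derivation.smul_apply, h.of_ne (Ne.symm hj), smul_zero,
        if_neg (Ne.symm hj)]
  refine ⟨Function.update D l₁ (z l₀ • d l₁), ⟨hD.mem, fun l => ?_, fun l j => ?_⟩, fun c hc => ?_⟩
  · by_cases hj : l = l₁
    · rw [hj, Function.update_self]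
      refine der_adj (fun x hx => le_adj _ _ (mul_mem (h.mem l₀) (h.pres l₁ x hx))) ?_
      rintro _ rfl
      have h2 := h1 l₁
      rw [Function.update_self, if_pos rfl] at h2
      rw [h2]
      exact one_mem _
    · rw [Function.update_of_ne hj]
      exact hD.pres l
  · by_cases hj : l = l₁
    · rw [hj, Function.update_self, h1]
    · rw [Function.update_of_ne hj, hD.dual]
  · rw [Function.update_self, Derivation.smul_apply, smul_eq_mul, mul_div_cancel_left₀ _ h0]
    exact h.pres l₁ c hc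

/-- **one step** -/
theorem Reg.step [CharZero k] (hV : Dom V O) (h : Reg O z S) {l₀ l₁ : Fin n} (h₀ : l₀ ∈ S)
    (hl : l₀ ≠ l₁) (hu : z l₁ / z l₀ ∈ V) :
    (Tr O V (z l₁ / z l₀) ∧ Reg (lv (adj O {z l₁ / z l₀}) V)
      (Function.update z l₁ (z l₁ / z l₀)) (S.erase l₁)) ∨
    ∃ f, Reg (lv (adj O {z l₁ / z l₀}) V) (Function.update z l₁ f) (insert l₁ S) := by
  set u := z l₁ / z l₀ with hu'
  have hA : ∀ x ∈ adj O {u}, x ∈ V := adj_le_val hV.le (by rintro _ rfl; exact hu)
  have hV1 := dom_lv hA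
  have hO : O ≤ lv (adj O {u}) V := (le_adj _ _).trans (le_lv _ _)
  have hu1 : u ∈ lv (adj O {u}) V := le_lv _ _ (mem_adj rfl)
  have hvan : ∀ f, ∀ l ∈ S, l ≠ l₁ → Van (lv (adj O {u}) V) (Function.update z l₁ f l) :=
    fun f l hS hne => by
      rw [Function.update_of_ne hne]
      exact hV1.van (hO (h.fr.mem l)) (hV.lt (h.van l hS))
  -- polynomials with coefficients in the maximal ideal
  have hlow : ∀ (f : F) (S' : Finset (Fin n)), S.erase l₁ ⊆ S' → ∀ r : O[X],
      (∀ i, V.valuation (r.coeff i : F) < 1) →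
      aeval u r ∈ Submodule.span (lv (adj O {u}) V) (Function.update z l₁ f '' S') := by
    intro f S' hS' r hr
    have h1 : ∀ l ∈ S, l ≠ l₁ →
        z l ∈ Submodule.span (lv (adj O {u}) V) (Function.update z l₁ f '' S') := fun l hS hne =>
      Submodule.subset_span ⟨l, hS' (Finset.mem_erase.2 ⟨hne, hS⟩), Function.update_of_ne hne _ _⟩
    rw [aeval_eq_sum]
    refine sum_mem fun i _ => ?_
    rw [mul_comm]
    refine mul_mem_span (pow_mem hu1 i) (span_le_span hO ?_ (h.gen _ (hV.van (r.coeff i).2 (hr i))))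
    rintro _ ⟨l, hS, rfl⟩
    by_cases hne : l = l₁
    · rw [hne, ← div_mul_cancel₀ (z l₁) (h.fr.ne_zero l₀)]
      exact mul_mem_span hu1 (h1 l₀ h₀ hl)
    · exact h1 l hS hne
  -- reduction to polynomials
  have hred : ∀ (s : Set F), (∀ q : O[X], V.valuation (aeval u q) < 1 →
      aeval u q ∈ Submodule.span (lv (adj O {u}) V) s) →
      ∀ x, Van (lv (adj O {u}) V) x → x ∈ Submodule.span (lv (adj O {u}) V) s := by
    intro s hs x hx
    obtain ⟨b, hb, h1, h2⟩ := hx.1
    obtain ⟨q, hq⟩ := exists_aeval h2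
    rw [← inv_mul_cancel_left₀ (ne_of_val h1) x, ← hq]
    refine mul_mem_span (inv_mem_lv hb h1) (hs q ?_)
    rw [hq, map_mul, h1, one_mul]
    exact hV1.lt hx
  rcases tr_or hV hu with ht | ⟨p, hp, hp', hq⟩
  · exact Or.inl ⟨ht, (h.fr.blow hl).lv V, fun l hS => hvan _ l (Finset.mem_of_mem_erase hS)
      (Finset.ne_of_mem_erase hS), hred _ fun q hq => hlow _ _ subset_rfl q (ht q hq)⟩
  · right
    obtain ⟨d, hd, hd'⟩ := exists_blow_der h.fr hl
    have hf : aeval u p ∈ lv (adj O {u}) V := le_lv _ _ (aeval_mem_adj p u)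
    have h1 := val_der_aeval (D := d l₁) hu (fun c hc => by
      rw [← div_mul_cancel₀ (d l₁ c) (h.fr.ne_zero l₀), mul_comm]
      exact val_mul_lt (hV.lt (h.van l₀ h₀)) (hV.le _ (hd' c hc))) p
    have h2 := hd.self l₁
    rw [Function.update_self] at h2
    rw [h2, mul_one, ← hp'] at h1
    have h3 := (hd.lv V).exch hf ((hV1.un_iff ((hd.lv V).pres l₁ _ hf)).2
      ((V.valuation.map_eq_of_sub_lt h1).trans hp'))
    rw [Function.update_idem] at h3
    refine ⟨_, h3, fun l hS => ?_, hred _ fun q hq' => ?_⟩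
    · by_cases hne : l = l₁
      · rw [hne, Function.update_self]
        exact hV1.van hf hp
      · exact hvan _ l ((Finset.mem_insert.1 hS).resolve_left hne) hne
    · obtain ⟨a, r, rfl, hr⟩ := hq q hq'
      rw [map_add, map_mul, mul_comm]
      exact add_mem (hlow _ _ ((Finset.erase_subset _ _).trans (Finset.subset_insert _ _)) r hr)
        (mul_mem_span (le_lv _ _ (aeval_mem_adj a u)) (Submodule.subset_span
          ⟨l₁, Finset.mem_insert_self _ _, Function.update_self _ _ _⟩))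

/-- `O` is regular of dimension two, and `V = ord_O` -/
structure Last (O : Subalgebra k F) (V : ValuationSubring F) (z : Fin n → F) (l₀ l₁ : Fin n) :
    Prop where
  ne : l₀ ≠ l₁
  dom : Dom V O
  reg : Reg O z {l₀, l₁}
  cen : Cen V (adj O {z l₁ / z l₀})
  tr : Tr O V (z l₁ / z l₀)

theorem Last.ord2 {l₀ l₁ : Fin n} (h : Last O V z l₀ l₁) : Ord2 O (z ∘ ![l₀, l₁]) V :=
  ⟨h.dom, h.reg.coords (by
    intro a b hab
    have h1 := h.ne
    fin_cases a <;> fin_cases b <;> simp_all) (by simp [or_comm]), h.cen, h.tr⟩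

variable (n) in
/-- `O = V`, or finitely many steps lead to the last ring -/
def Good (O : Subalgebra k F) (V : ValuationSubring F) : Prop :=
  (∀ x ∈ V, x ∈ O) ∨ ∃ U : Finset F, (∀ u ∈ U, u ∈ V) ∧
    ∃ (z : Fin n → F) (l₀ l₁ : Fin n), Last (lv (adj O U) V) V z l₀ l₁

/-- a regular ring which is a valuation ring has at most one parameter -/
theorem Reg.eq_of_val (h : Reg O z S) (hO : ∀ x ∈ V, x ∈ O) {l j : Fin n} (hl : l ∈ S)
    (hj : j ∈ S) : l = j := by
  by_contra hne
  rcases V.mem_or_inv_mem (z j / z l) with h1 | h1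
  · exact h.fr.div_notMem (h.van l hl) hne (hO _ h1)
  · rw [inv_div] at h1
    exact h.fr.div_notMem (h.van j hj) (Ne.symm hne) (hO _ h1)

theorem Reg.good_of_step [CharZero k] (hV : Dom V O) (h : Reg O z S) {l₀ l₁ : Fin n}
    (h₀ : l₀ ∈ S) (h₁ : l₁ ∈ S) (hl : l₀ ≠ l₁) (hu : z l₁ / z l₀ ∈ V)
    (hG : Good n (lv (adj O {z l₁ / z l₀}) V) V) : Good n O V := by
  classical
  have hA : ∀ x ∈ adj O {z l₁ / z l₀}, x ∈ V := adj_le_val hV.le (by rintro _ rfl; exact hu)
  right
  rcases hG with hG | ⟨U, hU, z', j₀, j₁, hG⟩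
  · rcases h.step hV h₀ hl hu with ⟨ht, h1⟩ | ⟨f, h1⟩
    · have h2 : S = {l₀, l₁} := by
        ext l
        rw [Finset.mem_insert, Finset.mem_singleton]
        refine ⟨fun hS => or_iff_not_imp_right.2 fun hne => h1.eq_of_val hG
          (Finset.mem_erase.2 ⟨hne, hS⟩) (Finset.mem_erase.2 ⟨hl, h₀⟩), ?_⟩
        rintro (rfl | rfl) <;> assumption
      refine ⟨∅, by simp, z, l₀, l₁, ?_⟩
      rw [Finset.coe_empty, adj_empty, hV.lv_eq]
      exact ⟨hl, hV, h2 ▸ h, cen_iff.2 ⟨hA, hG⟩, ht⟩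
    · exact absurd (h1.eq_of_val hG (Finset.mem_insert_of_mem h₀) (Finset.mem_insert_self _ _)) hl
  · refine ⟨insert (z l₁ / z l₀) U, fun x hx => (Finset.mem_insert.1 hx).elim (fun e => e ▸ hu)
      (hU x), z', j₀, j₁, ?_⟩
    rwa [lv_adj_lv hA hU, adj_adj, ← Set.insert_eq, ← Finset.coe_insert] at hG

/-- a whole quadratic transform -/
theorem Reg.good_of_qt [CharZero k] {l₀ : Fin n} (T : Finset (Fin n)) :
    ∀ {O : Subalgebra k F} {z : Fin n → F} {S : Finset (Fin n)}, Dom V O → Reg O z S → l₀ ∈ S →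
      T ⊆ S.erase l₀ → (∀ l ∈ T, z l / z l₀ ∈ V) →
      (∀ (O' : Subalgebra k F) (z' : Fin n → F) (S' : Finset (Fin n)), Dom V O' → Reg O' z' S' →
        O ≤ O' → (∀ l ∈ T, z l / z l₀ ∈ O') → Good n O' V) → Good n O V := by
  induction T using Finset.induction_on with
  | empty => exact fun hV h _ _ _ H => H _ _ _ hV h le_rfl (by simp)
  | insert l₁ T hT ih =>
    intro O z S hV h h₀ hS hu H
    obtain ⟨hl, h₁⟩ := Finset.mem_erase.1 (hS (Finset.mem_insert_self _ _))
    have hu₁ := hu l₁ (Finset.mem_insert_self _ _)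
    have hA : ∀ x ∈ adj O {z l₁ / z l₀}, x ∈ V := adj_le_val hV.le (by rintro _ rfl; exact hu₁)
    refine h.good_of_step hV h₀ h₁ hl.symm hu₁ ?_
    obtain ⟨f, S', h1, h2⟩ : ∃ f S', Reg (lv (adj O {z l₁ / z l₀}) V) (Function.update z l₁ f) S' ∧
        S.erase l₁ ⊆ S' := by
      rcases h.step hV h₀ hl.symm hu₁ with ⟨-, h1⟩ | ⟨f, h1⟩
      · exact ⟨_, _, h1, subset_rfl⟩
      · exact ⟨_, _, h1, (Finset.erase_subset _ _).trans (Finset.subset_insert _ _)⟩
    have h3 : ∀ l ∈ T, Function.update z l₁ f l / Function.update z l₁ f l₀ = z l / z l₀ :=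
      fun l hlT => by
        rw [Function.update_of_ne hl.symm, Function.update_of_ne fun e : l = l₁ => hT (e ▸ hlT)]
    refine ih (dom_lv hA) h1 (h2 (Finset.mem_erase.2 ⟨hl.symm, h₀⟩)) (fun l hlT => ?_)
      (fun l hlT => h3 l hlT ▸ hu l (Finset.mem_insert_of_mem hlT)) fun O' z' S'' h4 h5 h6 h7 => ?_
    · obtain ⟨h4, h5⟩ := Finset.mem_erase.1 (hS (Finset.mem_insert_of_mem hlT))
      exact Finset.mem_erase.2 ⟨h4, h2 (Finset.mem_erase.2 ⟨fun e => hT (e ▸ hlT), h5⟩)⟩
    · refine H O' z' S'' h4 h5 (((le_adj _ _).trans (le_lv _ _)).trans h6) fun l hl' => ?_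
      rcases Finset.mem_insert.1 hl' with rfl | hlT
      · exact h6 (le_lv _ _ (mem_adj rfl))
      · exact h3 l hlT ▸ h7 l hlT

/-- **the chain of blow-ups along a prime divisor is finite** -/
theorem Reg.good_aux [CharZero k] {ϖ : F} (hϖ : Unif V ϖ) {s : Set F} (hs : Cen V (Algebra.adjoin k s))
    (N : ℕ) : ∀ {O : Subalgebra k F} {z : Fin n → F} {S : Finset (Fin n)} {c : F}, Dom V O →
      Reg O z S → c ∈ O → V.valuation c = V.valuation ϖ ^ N → (∀ b ∈ s, c * b ∈ O) →
      Good n O V := by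
  induction N using Nat.strong_induction_on with
  | _ N ih =>
    intro O z S c hV h hc hN hb
    have hc0 : c ≠ 0 := fun h0 => (pow_pos (val_pos (V := V) hϖ.ne) N).ne' (by rw [← hN, h0, map_zero])
    by_cases h1 : V.valuation c = 1
    · refine Or.inl (hV.of_le (hs.mono (Algebra.adjoin_le fun b hb' => ?_) hV.le))
      rw [SetLike.mem_coe, ← inv_mul_cancel_left₀ hc0 b]
      exact mul_mem (hV.inv c hc h1) (hb b hb')
    have h2 : V.valuation c < 1 := lt_of_le_of_ne (val_le (hV.le c hc)) h1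
    have h3 := h.gen c (hV.van hc h2)
    obtain ⟨l₀, h₀, hmax⟩ := S.exists_max_image (fun l => V.valuation (z l)) (by
      rw [Finset.nonempty_iff_ne_empty]
      rintro rfl
      rw [Finset.coe_empty, Set.image_empty, Submodule.span_empty, Submodule.mem_bot] at h3
      exact hc0 h3)
    have h4 := h.fr.ne_zero l₀
    refine Reg.good_of_qt (S.erase l₀) hV h h₀ subset_rfl
      (fun l hl => div_mem_of_le h4 (hmax l (Finset.mem_of_mem_erase hl)))
      fun O' z' S' hV' h' hO h5 => ?_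
    have h6 : ∀ x, Van O x → x / z l₀ ∈ O' := fun x hx => div_mem_of_span hO (by
      rintro _ ⟨l, hl, rfl⟩
      by_cases e : l = l₀
      · rw [e, div_self h4]
        exact one_mem _
      · exact h5 l (Finset.mem_erase.2 ⟨e, hl⟩)) (h.gen x hx)
    have h7 := h6 c (hV.van hc h2)
    obtain ⟨M, hM⟩ := hϖ.ex _ (div_ne_zero hc0 h4) (hV'.le _ h7)
    refine ih M ?_ hV' h' h7 hM fun b hb' => ?_
    · rw [← pow_lt_pow_iff_right_of_lt_one₀ (val_pos hϖ.ne) hϖ.lt, ← hN, ← hM]
      conv_lhs => rw [← div_mul_cancel₀ c h4, map_mul]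
      exact mul_lt_of_lt_one_right (val_pos (div_ne_zero hc0 h4)) (hV.lt (h.van l₀ h₀))
    · rw [div_mul_eq_mul_div]
      exact h6 _ (hV.van (hb b hb') (val_mul_lt h2 (hs.le b (Algebra.subset_adjoin hb'))))

theorem exists_denom (hfr : ∀ x : F, ∃ a ∈ O, ∃ c ∈ O, c ≠ 0 ∧ x = a / c) (s : Finset F) :
    ∃ c ∈ O, c ≠ 0 ∧ ∀ b ∈ s, c * b ∈ O := by
  classical
  choose a ha c hc hc0 h using hfr
  refine ⟨∏ b ∈ s, c b, prod_mem fun b _ => hc b, Finset.prod_ne_zero_iff.2 fun b _ => hc0 b,
    fun b hb => ?_⟩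
  rw [← Finset.prod_erase_mul s c hb, mul_assoc]
  refine mul_mem (prod_mem fun b _ => hc b) ?_
  rw [show c b * b = a b from ((eq_div_iff (hc0 b)).1 (h b) ▸ mul_comm _ _)]
  exact ha b

theorem Reg.good [CharZero k] {ϖ : F} (hϖ : Unif V ϖ) {B : Subalgebra k F} (hB : B.FG)
    (hs : Cen V B) (hV : Dom V O) (h : Reg O z S)
    (hfr : ∀ x : F, ∃ a ∈ O, ∃ c ∈ O, c ≠ 0 ∧ x = a / c) : Good n O V := by
  obtain ⟨s, rfl⟩ := hB
  obtain ⟨c, hc, hc0, hb⟩ := exists_denom hfr s
  obtain ⟨N, hN⟩ := hϖ.ex c hc0 (hV.le c hc)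
  exact Reg.good_aux hϖ hs N hV h hc hN hb

end Crest.Agent.X262.Qt
end
end

-- ▼ part X262/Qt/Sm
section

/-!
# Row 262, QT (helper42), part 2: smooth local rings with an arbitrary residue field

* `mem_sq_of_tmul`          : the conormal sequence of a residue field is left exact;
* `formallySmooth_of_coords`: parameters with dual derivations give smoothness;
* `Dual.D_eq`, `Dual.jac_eq`: differentials and Jacobians in a frame;
* `exists_fr`, `exists_reg`, `exists_reg_of_coords` : smooth local rings have coordinates.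
-/

set_option autoImplicit false

noncomputable section

namespace Crest.Agent.X262.Qt

open Crest.Agent.X277.Res Crest.Agent.X277.Res.Out Crest.Agent.X277.Res.Out.Lb
open Crest.Agent.X277.Lef KaehlerDifferential TensorProduct Module

section Abstract

theorem mem_sq_of_tmul {k P κ : Type*} [CommRing k] [CommRing P] [CommRing κ] [Algebra k P]
    [Algebra k κ] [Algebra P κ] [IsScalarTower k P κ] [Algebra.FormallySmooth k P]
    [Algebra.FormallySmooth k κ] (h : Function.Surjective (algebraMap P κ)) {f : P}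
    (hf : algebraMap P κ f = 0) (h0 : (1 : κ) ⊗ₜ[P] D k P f = 0) :
    f ∈ RingHom.ker (algebraMap P κ) ^ 2 := by
  obtain ⟨l, hl⟩ := (Algebra.FormallySmooth.iff_split_injection (R := k) h).1 inferInstance
  have h1 := LinearMap.congr_fun hl (Ideal.toCotangent _ ⟨f, hf⟩)
  rw [LinearMap.comp_apply, kerCotangentToTensor_toCotangent, h0, map_zero] at h1
  exact (Ideal.toCotangent_eq_zero _ _).1 h1.symm


theorem formallySmooth_residueField (k O : Type*) [Field k] [CharZero k] [CommRing O]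
    [Algebra k O] [IsLocalRing O] [Algebra.EssFiniteType k O] :
    Algebra.FormallySmooth k (IsLocalRing.ResidueField O) :=
  have := Algebra.EssFiniteType.of_surjective
    (IsScalarTower.toAlgHom k O (IsLocalRing.ResidueField O)) IsLocalRing.residue_surjective
  Algebra.FormallySmooth.of_perfectField


variable {k O F : Type} [Field k] [CommRing O] [IsDomain O] [IsLocalRing O] [Field F]
  [Algebra k O] [Algebra k F] [Algebra O F] [IsScalarTower k O F] [IsFractionRing O F]
  [Algebra.FormallySmooth k O] [Algebra.EssFiniteType k O] {n : ℕ}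

theorem exists_dual_abs [IsNoetherianRing O] (b : Basis (Fin n) F Ω[F⁄k]) :
    ∃ (z : Fin n → O) (d : Fin n → Derivation k F F),
      (∀ l (x : O), ∃ y : O, d l (algebraMap O F x) = algebraMap O F y) ∧
      ∀ l j, d l (algebraMap O F (z j)) = if l = j then 1 else 0 := by
  classical
  have : Module.FinitePresentation O Ω[O⁄k] := Module.finitePresentation_of_finite _ _
  obtain ⟨κ, a, e, he⟩ := Module.exists_basis_of_span_of_flat (D k O) (span_range_derivation k O)
  let e' := e.ofIsLocalizedModule F (nonZeroDivisors O) (KaehlerDifferential.map k k O F)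
  let σ := b.indexEquiv e'
  have h1 : ∀ (x : O) i, e'.repr (D k F (algebraMap O F x)) i =
      algebraMap O F (e.repr (D k O x) i) := fun x i => by
    rw [← map_D k k O F]
    exact e.ofIsLocalizedModule_repr_apply F _ _ _ i
  refine ⟨fun l => a (σ l), fun l => (e'.coord (σ l)).compDer (D k F),
    fun l x => ⟨_, h1 x (σ l)⟩, fun l j => (h1 _ (σ l)).trans ?_⟩
  rw [← he, e.repr_self, Finsupp.single_apply]
  by_cases h : l = j
  · simp [h]
  · simp [h, Ne.symm h]

theorem mem_sq_abs [CharZero k] {x : O} {c z : Fin n → O}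
    (h : D k F (algebraMap O F x) = ∑ l, algebraMap O F (c l) • D k F (algebraMap O F (z l)))
    (hx : x ∈ IsLocalRing.maximalIdeal O) (hc : ∀ l, c l ∈ IsLocalRing.maximalIdeal O) :
    x ∈ IsLocalRing.maximalIdeal O ^ 2 := by
  have h1 : Function.Injective (KaehlerDifferential.map k k O F) :=
    (IsLocalizedModule.injective_iff_isRegular (nonZeroDivisors O) _).2 fun c =>
      (IsRegular.of_ne_zero (nonZeroDivisors.coe_ne_zero c)).isSMulRegular
  have h2 : D k O x = ∑ l, c l • D k O (z l) := h1 (by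
    rw [map_D, map_sum, h]
    exact Finset.sum_congr rfl fun l _ => by rw [map_smul, map_D, algebraMap_smul])
  have := formallySmooth_residueField k O
  have h3 := mem_sq_of_tmul (k := k) (κ := IsLocalRing.ResidueField O)
    IsLocalRing.residue_surjective ((IsLocalRing.residue_eq_zero_iff x).2 hx) (by
      rw [h2, TensorProduct.tmul_sum]
      refine Finset.sum_eq_zero fun l _ => ?_
      rw [← TensorProduct.smul_tmul, Algebra.smul_def, IsLocalRing.ResidueField.algebraMap_eq,
        (IsLocalRing.residue_eq_zero_iff _).2 (hc l), zero_mul, TensorProduct.zero_tmul])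
  rwa [IsLocalRing.ResidueField.algebraMap_eq, IsLocalRing.ker_residue] at h3

end Abstract

variable {k F : Type} [Field k] [Field F] [Algebra k F]
variable {A O : Subalgebra k F} {V : ValuationSubring F}


theorem formallySmooth_lv [Algebra.FormallySmooth k A] (hA : ∀ x ∈ A, x ∈ V) :
    Algebra.FormallySmooth k (lv A V) :=
  haveI := isPrime_ctr hA
  haveI := isLocalization_lv hA
  haveI := Algebra.FormallySmooth.of_isLocalization (Rₘ := lv A V) (ctr V A).primeCompl
  Algebra.FormallySmooth.comp k A _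

theorem isFractionRing_of (hfr : ∀ x : F, ∃ a ∈ O, ∃ c ∈ O, c ≠ 0 ∧ x = a / c) :
    IsFractionRing O F :=
  IsFractionRing.of_field O F fun x => by
    obtain ⟨a, ha, c, hc, -, h⟩ := hfr x
    exact ⟨⟨a, ha⟩, ⟨c, hc⟩, h⟩

variable {n : ℕ} {z : Fin n → F} {d : Fin n → Derivation k F F} {S : Finset (Fin n)}

theorem Dual.lift_sum (h : Dual O z d) (c : Fin n → F) (j : Fin n) :
    (d j).liftKaehlerDifferential (∑ l, c l • D k F (z l)) = c j := by
  simp [h.dual]

/-- differentials in a frame -/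
theorem Dual.D_eq (b : Basis (Fin n) F Ω[F⁄k]) (h : Dual O z d) (x : F) :
    D k F x = ∑ l, d l x • D k F (z l) := by
  have h1 : LinearIndependent F fun l => D k F (z l) :=
    Fintype.linearIndependent_iff.2 fun c hc j => by rw [← h.lift_sum c j, hc, map_zero]
  have := Module.Finite.of_basis b
  have h2 := h1.span_eq_top_of_card_eq_finrank' (finrank_eq_card_basis b).symm
  obtain ⟨c, hc⟩ := (Submodule.mem_span_range_iff_exists_fun F).1
    (h2 ▸ Submodule.mem_top : D k F x ∈ _)
  rw [← hc]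
  refine Finset.sum_congr rfl fun l _ => ?_
  rw [← h.lift_sum c l, hc, Derivation.liftKaehlerDifferential_comp_D]


theorem Dual.jac_eq (b : Basis (Fin n) F Ω[F⁄k]) (h : Dual O z d) (a : Fin n → F) :
    jac b a = (Matrix.of fun j l => d l (a j)).det * jac b z := by
  have h1 : (b.toMatrix fun j => D k F (a j)) =
      (b.toMatrix fun l => D k F (z l)) * (Matrix.of fun j l => d l (a j)).transpose := by
    ext i j
    rw [Basis.toMatrix_apply, h.D_eq b (a j), Matrix.mul_apply]
    simp [Basis.toMatrix_apply, mul_comm]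
  rw [jac_eq_toMatrix, jac_eq_toMatrix, h1, Matrix.det_mul, Matrix.det_transpose, mul_comm]

theorem Fr.jac_ne (b : Basis (Fin n) F Ω[F⁄k]) (h : Fr O z) : jac b z ≠ 0 := by
  obtain ⟨d, h⟩ := h
  have h1 : LinearIndependent F fun l => D k F (z l) :=
    Fintype.linearIndependent_iff.2 fun c hc j => by rw [← h.lift_sum c j, hc, map_zero]
  have := Module.Finite.of_basis b
  exact (b.is_basis_iff_det.1
    ⟨h1, h1.span_eq_top_of_card_eq_finrank' (finrank_eq_card_basis b).symm⟩).ne_zero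

/-- the Jacobian of a frame generates the module of Jacobians -/
theorem Fr.jac_div_mem (b : Basis (Fin n) F Ω[F⁄k]) (h : Fr O z) {a : Fin n → F}
    (ha : ∀ l, a l ∈ O) : jac b a / jac b z ∈ O := by
  have h0 := h.jac_ne b
  obtain ⟨d, h⟩ := h
  rw [h.jac_eq b a, mul_div_cancel_right₀ _ h0, Matrix.det_apply']
  exact sum_mem fun σ _ => mul_mem (intCast_mem _ _) (prod_mem fun i _ => h.pres _ _ (ha _))

theorem jac_blow (b : Basis (Fin n) F Ω[F⁄k]) {l₀ l₁ : Fin n} (hl : l₀ ≠ l₁) (h0 : z l₀ ≠ 0) :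
    jac b z = z l₀ * jac b (Function.update z l₁ (z l₁ / z l₀)) := by
  have h1 : ∀ f, jac b (Function.update z l₁ f) =
      b.det (Function.update (fun l => D k F (z l)) l₁ (D k F f)) := fun f => by
    rw [jac, ← Function.comp_def, Function.comp_update]
    rfl
  conv_lhs => rw [← Function.update_eq_self l₁ z, ← mul_div_cancel₀ (z l₁) h0]
  rw [h1, h1, Derivation.leibniz, AlternatingMap.map_update_add, AlternatingMap.map_update_smul,
    AlternatingMap.map_update_smul,
    AlternatingMap.map_update_self b.det (fun l => D k F (z l)) hl.symm, smul_zero, add_zero,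
    smul_eq_mul]

section Smooth

variable [IsLocalRing O] [Algebra.FormallySmooth k O] [Algebra.EssFiniteType k O]
  [IsFractionRing O F] (b : Basis (Fin n) F Ω[F⁄k])

include b in
/-- a smooth local ring has a frame -/
theorem exists_fr [IsNoetherianRing O] : ∃ z : Fin n → F, Fr O z := by
  obtain ⟨z, d, h1, h2⟩ := exists_dual_abs (O := O) b
  refine ⟨fun l => z l, d, fun l => (z l).2, fun l x hx => ?_, h2⟩
  obtain ⟨y, hy⟩ := h1 l ⟨x, hx⟩
  exact (show d l x = y from hy) ▸ y.2

variable [CharZero k]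

include b in
/-- a function with vanishing value and derivatives vanishes to second order -/
theorem Dual.mem_sq (h : Dual O z d) {x : O} (hx : Van O x) (hd : ∀ l, Van O (d l x)) :
    x ∈ IsLocalRing.maximalIdeal O ^ 2 :=
  mem_sq_abs (F := F) (c := fun l => ⟨d l x, h.pres l x x.2⟩) (z := fun l => ⟨z l, h.mem l⟩)
    (h.D_eq b x) ((van_iff_mem_max x).1 hx) fun l => (van_iff_mem_max _).1 (hd l)

variable [IsNoetherianRing O]

include b in
theorem Dual.reg (h : Dual O z d) (hS : ∀ l ∈ S, Van O (z l))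
    (hd : ∀ x, Van O x → ∀ l ∉ S, Van O (d l x)) : Reg O z S := by
  let J : Ideal O := Ideal.span ((fun l => (⟨z l, h.mem l⟩ : O)) '' S)
  have h1 : IsLocalRing.maximalIdeal O ≤ J := by
    refine Submodule.le_of_le_smul_of_le_jacobson_bot (IsNoetherian.noetherian _)
      (IsLocalRing.maximalIdeal_le_jacobson _) fun x hx => ?_
    have hx' := (van_iff_mem_max x).2 hx
    let y : O := ∑ l ∈ S, ⟨d l x, h.pres l x x.2⟩ * ⟨z l, h.mem l⟩
    have hy : (y : F) = ∑ l ∈ S, d l x * z l := by simp [y]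
    have h2 : y ∈ J := Ideal.sum_mem _ fun l hl =>
      Ideal.mul_mem_left _ _ (Ideal.subset_span ⟨l, hl, rfl⟩)
    have h3 : x - y ∈ IsLocalRing.maximalIdeal O ^ 2 := by
      refine h.mem_sq b ((van_iff_mem_max _).2 (sub_mem hx (Ideal.sum_mem _ fun l hl =>
        Ideal.mul_mem_left _ _ ((van_iff_mem_max _).1 (hS l hl))))) fun j => ?_
      have h4 : d j ((x - y : O) : F) =
          (if j ∈ S then 0 else d j x) + ∑ l ∈ S, (-d j (d l x)) * z l := by
        rw [AddSubgroupClass.coe_sub, hy, map_sub, map_sum]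
        simp only [Derivation.leibniz, smul_eq_mul, h.dual, Finset.sum_add_distrib, mul_ite,
          mul_one, mul_zero, Finset.sum_ite_eq, neg_mul, Finset.sum_neg_distrib, mul_comm (z _)]
        split_ifs <;> ring
      rw [h4]
      refine Van.add ?_ (Van.sum _ fun l hl =>
        Van.mul_left (neg_mem (h.pres j _ (h.pres l x x.2))) (hS l hl))
      split_ifs with hj
      · exact van_zero
      · exact hd x hx' j hj
    rw [← add_sub_cancel y x]
    exact Submodule.add_mem_sup h2 (by rwa [smul_eq_mul, ← pow_two])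
  refine ⟨⟨d, h⟩, hS, fun x hx => ?_⟩
  have h2 := Submodule.apply_mem_span_image_of_mem_span (Algebra.linearMap O F)
    (h1 ((van_iff_mem_max ⟨x, hx.1⟩).1 hx))
  rwa [← Set.image_comp] at h2

include b in
/-- a frame can be changed to a regular system of coordinates -/
theorem Fr.exists_reg (h : Fr O z) (hS : ∀ l ∈ S, Van O (z l)) :
    ∃ z' S', S ⊆ S' ∧ (∀ l ∈ S, z' l = z l) ∧ Reg O z' S' := by
  induction hN : Sᶜ.card using Nat.strong_induction_on generalizing z S with
  | _ N ih =>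
    obtain ⟨d, h⟩ := h
    by_cases hd : ∀ x, Van O x → ∀ l ∉ S, Van O (d l x)
    · exact ⟨z, S, subset_rfl, fun _ _ => rfl, h.reg b hS hd⟩
    push Not at hd
    obtain ⟨x, hx, l, hl, hd⟩ := hd
    have h1 : Un O (d l x) := not_not.1 fun h1 => hd ⟨h.pres l x hx.1, h1⟩
    obtain ⟨z', S', h2, h3, h4⟩ := ih _ (by
      rw [← hN]
      exact Finset.card_lt_card (Finset.compl_ssubset_compl.2 (Finset.ssubset_insert hl)))
      (h.exch hx.1 h1) (S := insert l S) (fun j hj => by
        by_cases e : j = l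
        · rwa [e, Function.update_self]
        · rw [Function.update_of_ne e]
          exact hS j ((Finset.mem_insert.1 hj).resolve_left e)) rfl
    exact ⟨z', S', (Finset.subset_insert _ _).trans h2, fun j hj => by
      rw [h3 j (Finset.mem_insert_of_mem hj), Function.update_of_ne fun e : j = l => hl (e ▸ hj)],
      h4⟩

include b in
/-- **a smooth local ring has coordinates** -/
theorem exists_reg : ∃ (z : Fin n → F) (S : Finset (Fin n)), Reg O z S := by
  obtain ⟨z, h⟩ := exists_fr (O := O) b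
  obtain ⟨z', S', -, -, h1⟩ := h.exists_reg b (S := ∅) (by simp)
  exact ⟨z', S', h1⟩

end Smooth


end Crest.Agent.X262.Qt
end
end

-- ▼ part X262/Qt/Disc
section

/-!
# Row 262, QT (helper42), part 4: Jacobians along a valuation

* `Dv k V`   : `V` is discrete and a localisation of an algebra of finite type;
* `FrV k V z`: `z` is a frame of the valuation ring `V`;
* `Reg.val_lt` : a regular local ring which is strictly dominated has positive discrepancy;
* `Last.val_lt` : two steps; `Last.val_le_pow` : `ord_O` is the smallest valuation over `O`.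
-/

set_option autoImplicit false

noncomputable section

namespace Crest.Agent.X262.Qt

open Crest.Agent.X277.Res.Out Crest.Agent.X277.Res.Out.Lb Crest.Agent.X277.Lef Polynomial Module
open scoped KaehlerDifferential

variable {k F : Type} [Field k] [Field F] [Algebra k F]

variable (k) in
/-- `V` is discrete and a localisation of an algebra of finite type -/
def Dv (V : ValuationSubring F) : Prop :=
  (∃ ϖ, Unif V ϖ) ∧ ∃ B : Subalgebra k F, B.FG ∧ Cen V B

variable (k) in
/-- a frame of a valuation ring -/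
def FrV (V : ValuationSubring F) {n : ℕ} (z : Fin n → F) : Prop :=
  ∃ O : Subalgebra k F, Cen V O ∧ Fr O z

variable {O O' : Subalgebra k F} {V W : ValuationSubring F} {n : ℕ} {z z' a : Fin n → F}
  {S : Finset (Fin n)} {l₀ l₁ : Fin n} {u : F} (b : Basis (Fin n) F Ω[F⁄k])

theorem Fr.val_le (h : Fr O z) (hO : ∀ x ∈ O, x ∈ V) (ha : ∀ l, a l ∈ Qt.lv O V) :
    V.valuation (jac b a) ≤ V.valuation (jac b z) := by
  have h1 := Lb.val_le (lv_le hO _ ((h.lv V).jac_div_mem b ha))
  rwa [map_div₀, div_le_one₀ (val_pos (h.jac_ne b))] at h1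

theorem Fr.val_eq (h : Fr O z) (h' : Fr O z') (hO : ∀ x ∈ O, x ∈ V) :
    V.valuation (jac b z) = V.valuation (jac b z') :=
  le_antisymm (h'.val_le b hO fun l => le_lv _ _ (h.mem l))
    (h.val_le b hO fun l => le_lv _ _ (h'.mem l))

theorem FrV.mem (h : FrV k V z) (l : Fin n) : z l ∈ V := by
  obtain ⟨O, h1, h2⟩ := h
  exact h1.le _ (h2.mem l)

theorem FrV.jac_ne (h : FrV k V z) : jac b z ≠ 0 := h.choose_spec.2.jac_ne b

theorem FrV.val_le (h : FrV k V z) (ha : ∀ l, a l ∈ V) :
    V.valuation (jac b a) ≤ V.valuation (jac b z) := by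
  obtain ⟨O, h1, h2⟩ := h
  exact h2.val_le b h1.le fun l => h1.loc _ (ha l)

theorem FrV.val_eq (h : FrV k V z) (h' : FrV k V z') :
    V.valuation (jac b z) = V.valuation (jac b z') :=
  le_antisymm (h'.val_le b h.mem) (h.val_le b h'.mem)

theorem Last.frV (h : Last O V z l₀ l₁) : FrV k V (Function.update z l₁ (z l₁ / z l₀)) :=
  ⟨_, h.cen, h.reg.fr.blow h.ne⟩

theorem Last.lt₀ (h : Last O V z l₀ l₁) : V.valuation (z l₀) < 1 :=
  h.dom.lt (h.reg.van l₀ (by simp))

theorem Last.not_le (h : Last O V z l₀ l₁) (hW : ∀ x ∈ W, x ∈ O) : False :=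
  h.ne (h.reg.eq_of_val hW (by simp) (by simp))

theorem cen_of_le (h : ∀ x ∈ O, x ∈ V) (h' : ∀ x ∈ V, x ∈ O) : Cen V O :=
  ⟨h, fun x hx => le_lv O V (h' x hx)⟩

theorem frac_mono (h : O ≤ O') (hfr : ∀ x : F, ∃ a ∈ O, ∃ c ∈ O, c ≠ 0 ∧ x = a / c) (x : F) :
    ∃ a ∈ O', ∃ c ∈ O', c ≠ 0 ∧ x = a / c := by
  obtain ⟨a, ha, c, hc, h1⟩ := hfr x
  exact ⟨a, h ha, c, h hc, h1⟩

section Key

variable [CharZero k] (hW : Dv k V) (hV : Dom V O)
  (hfr : ∀ x : F, ∃ a ∈ O, ∃ c ∈ O, c ≠ 0 ∧ x = a / c)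
include hW hV hfr

theorem Reg.good' (h : Reg O z S) : Good n O V := by
  obtain ⟨⟨ϖ, hϖ⟩, B, hB, hc⟩ := hW
  exact h.good hϖ hB hc hV hfr

theorem Reg.exists_lt (h : Reg O z S) (hn : ¬ ∀ x ∈ V, x ∈ O) :
    ∃ z', FrV k V z' ∧ V.valuation (jac b z) < V.valuation (jac b z') := by
  obtain ⟨U, -, y, l₀, l₁, hy⟩ := (h.good' hW hV hfr).resolve_left hn
  refine ⟨_, hy.frV, (hy.reg.fr.val_le b hy.dom.le fun l =>
    le_lv _ _ (le_lv _ _ (le_adj _ _ (h.fr.mem l)))).trans_lt ?_⟩
  rw [jac_blow b hy.ne (hy.reg.fr.ne_zero l₀), map_mul]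
  exact mul_lt_of_lt_one_left (val_pos (hy.frV.jac_ne b)) hy.lt₀

include b in
theorem Reg.exists_frV (h : Reg O z S) : ∃ z' : Fin n → F, FrV k V z' := by
  by_cases hn : ∀ x ∈ V, x ∈ O
  · exact ⟨z, O, cen_of_le hV.le hn, h.fr⟩
  · exact (h.exists_lt b hW hV hfr hn).imp fun _ h => h.1

/-- **positive discrepancy** -/
theorem Reg.val_lt (h : Reg O z S) (hn : ¬ ∀ x ∈ V, x ∈ O) (hz : FrV k V z') :
    V.valuation (jac b z) < V.valuation (jac b z') := by
  obtain ⟨y, h1, h2⟩ := h.exists_lt b hW hV hfr hn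
  exact h2.trans_le (hz.val_le b h1.mem)

theorem Reg.two (h : Reg O z S) (h₀ : l₀ ∈ S) (hl : l₀ ≠ l₁) (hu : z l₁ / z l₀ ∈ V)
    (hz : FrV k V z') : (Tr O V (z l₁ / z l₀) ∧ Cen V (adj O {z l₁ / z l₀})) ∨
      V.valuation (jac b z) < V.valuation (z l₀ * jac b z') := by
  have hA : ∀ x ∈ adj O {z l₁ / z l₀}, x ∈ V := adj_le_val hV.le (by rintro _ rfl; exact hu)
  have h1 := (h.fr.blow hl).lv V
  by_cases hn : ∀ x ∈ V, x ∈ lv (adj O {z l₁ / z l₀}) V
  · refine Or.inl ⟨?_, cen_iff.2 ⟨hA, hn⟩⟩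
    rcases h.step hV h₀ hl hu with h2 | ⟨f, h2⟩
    · exact h2.1
    · exact absurd (h2.eq_of_val hn (Finset.mem_insert_of_mem h₀) (Finset.mem_insert_self _ _)) hl
  · have h3 : ∃ y S', Reg (lv (adj O {z l₁ / z l₀}) V) (n := n) y S' := by
      rcases h.step hV h₀ hl hu with h2 | ⟨f, h2⟩
      exacts [⟨_, _, h2.2⟩, ⟨_, _, h2⟩]
    obtain ⟨y, S', h3⟩ := h3
    right
    rw [jac_blow b hl (h.fr.ne_zero l₀), map_mul, map_mul, h1.val_eq b h3.fr (lv_le hA)]
    exact mul_lt_mul_of_pos_left (h3.val_lt b hW (dom_lv hA)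
      (frac_mono ((le_adj _ _).trans (le_lv _ _)) hfr) hn hz) (val_pos (h.fr.ne_zero l₀))

end Key


theorem val_aeval_lt (hu : u ∈ V) {q : O[X]} (hq : ∀ i, V.valuation (q.coeff i : F) < 1) :
    V.valuation (aeval u q) < 1 := by
  rw [aeval_eq_sum]
  exact V.valuation.map_sum_lt one_ne_zero fun i _ => val_mul_lt (hq i) (pow_mem hu i)

theorem Tr.not_lt (h : Tr O V u) : ¬ V.valuation u < 1 := fun h1 => by
  simpa using h X (by simpa using h1) 1

theorem le_of_tr (hV : Dom V O) (hW : Dom W O) (h : Tr O W u) (h1 : Cen V (adj O {u}))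
    (h2 : u ∈ W) : V ≤ W := by
  have h3 : ∀ x ∈ adj O {u}, x ∈ W := adj_le_val hW.le (by rintro _ rfl; exact h2)
  refine h1.le_of_ctr h3 fun a ha => (mem_ctr h1.le).2 ?_
  obtain ⟨q, hq⟩ := exists_aeval a.2
  have h4 := (mem_ctr h3).1 ha
  rw [← hq] at h4 ⊢
  exact val_aeval_lt (h1.le u (mem_adj rfl)) fun i => hV.lt (hW.van (q.coeff i).2 (h q h4 i))

namespace Last

variable (h : Last O V z l₀ l₁)
include h

theorem mem : z l₁ / z l₀ ∈ V := h.cen.le _ (mem_adj rfl)

/-- two steps -/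
theorem val_lt [CharZero k] (hW : Dv k W) (hd : Dom W O)
    (hfr : ∀ x : F, ∃ a ∈ O, ∃ c ∈ O, c ≠ 0 ∧ x = a / c) (hne : W ≠ V) (hz : FrV k W z') :
    ∃ x, x ≠ 0 ∧ W.valuation x < 1 ∧ W.valuation (jac b z) < W.valuation (x * jac b z') := by
  by_cases hu : z l₁ / z l₀ ∈ W
  · refine ⟨z l₀, h.reg.fr.ne_zero _, hd.lt (h.reg.van _ (by simp)),
      (h.reg.two b hW hd hfr (by simp) h.ne hu hz).resolve_left fun h1 => hne ?_⟩
    exact le_antisymm (le_of_tr hd h.dom h.tr h1.2 h.mem) (le_of_tr h.dom hd h1.1 h.cen hu)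
  · have h1 : W.valuation (z l₀ / z l₁) < 1 := val_lt_one (by rwa [inv_div])
    exact ⟨z l₁, h.reg.fr.ne_zero _, hd.lt (h.reg.van _ (by simp)),
      (h.reg.two b hW hd hfr (by simp) h.ne.symm ((W.valuation_le_one_iff _).1 h1.le)
        hz).resolve_left fun h2 => h2.1.not_lt h1⟩

theorem exists_pair {c : F} (hc : Van O c) : ∃ s t : O, c = s * z l₀ + t * z l₁ := by
  have h1 := h.reg.gen c hc
  rw [Finset.coe_pair, Set.image_pair, Submodule.mem_span_pair] at h1
  obtain ⟨s, t, h1⟩ := h1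
  exact ⟨s, t, h1.symm⟩

theorem exists_div {q : O[X]} (hq : V.valuation (aeval (z l₁ / z l₀) q) < 1) :
    ∃ p : O[X], p.natDegree ≤ q.natDegree + 1 ∧
      aeval (z l₁ / z l₀) q = z l₀ * aeval (z l₁ / z l₀) p := by
  choose s t hst using fun i => h.exists_pair (h.dom.van (q.coeff i).2 (h.tr q hq i))
  have h0 := h.reg.fr.ne_zero l₀
  refine ⟨∑ i ∈ Finset.range (q.natDegree + 1), (monomial i (s i) + monomial (i + 1) (t i)),
    natDegree_sum_le_of_forall_le _ _ fun i hi => natDegree_add_le_of_degree_le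
      ((natDegree_monomial_le _).trans (Finset.mem_range.1 hi).le)
      ((natDegree_monomial_le _).trans (Finset.mem_range.1 hi)), ?_⟩
  rw [aeval_eq_sum, map_sum, Finset.mul_sum]
  refine Finset.sum_congr rfl fun i _ => ?_
  rw [map_add, aeval_monomial, aeval_monomial, hst i, pow_succ]
  change _ = z l₀ * ((s i : F) * _ + (t i : F) * _)
  field_simp

/-- the first parameter is a uniformiser -/
theorem le_of_lt {f : F} (hf : V.valuation f < 1) : V.valuation f ≤ V.valuation (z l₀) := by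
  obtain ⟨c, -, h1, h2⟩ := h.cen.loc f ((V.valuation_le_one_iff _).1 hf.le)
  obtain ⟨q, hq⟩ := exists_aeval h2
  have h3 : V.valuation (aeval (z l₁ / z l₀) q) = V.valuation f := by rw [hq, map_mul, h1, one_mul]
  obtain ⟨p, -, hp⟩ := h.exists_div (h3 ▸ hf)
  rw [← h3, hp, map_mul]
  exact mul_le_of_le_one_right' (val_le (h.cen.le _ (aeval_mem_adj p _)))

theorem exists_poly {f : F} (hf : f ∈ O) (m : ℕ) (hm : V.valuation f ≤ V.valuation (z l₀) ^ m) :
    ∃ q : O[X], q.natDegree ≤ m ∧ f = z l₀ ^ m * aeval (z l₁ / z l₀) q := by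
  induction m with
  | zero => exact ⟨C ⟨f, hf⟩, by simp, by simp⟩
  | succ m ih =>
    obtain ⟨q, h1, h2⟩ := ih (hm.trans (pow_le_pow_right_of_le_one' h.lt₀.le m.le_succ))
    rw [h2, map_mul, map_pow, pow_succ,
      mul_le_mul_iff_right₀ (pow_pos (val_pos (h.reg.fr.ne_zero l₀)) m)] at hm
    obtain ⟨p, h3, h4⟩ := h.exists_div (hm.trans_lt h.lt₀)
    exact ⟨p, h3.trans (Nat.succ_le_succ h1), by rw [h2, h4, pow_succ, mul_assoc]⟩

/-- `ord_O` is the smallest valuation over `O` -/
theorem val_le_pow (hW : ∀ x ∈ O, x ∈ W) {γ : W.ValueGroup} (h0 : W.valuation (z l₀) ≤ γ)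
    (h1 : W.valuation (z l₁) ≤ γ) {f : F} (hf : f ∈ O) {m : ℕ}
    (hm : V.valuation f ≤ V.valuation (z l₀) ^ m) : W.valuation f ≤ γ ^ m := by
  obtain ⟨q, h2, rfl⟩ := h.exists_poly hf m hm
  rw [aeval_eq_sum, Finset.mul_sum]
  refine W.valuation.map_sum_le fun i hi => ?_
  obtain ⟨j, rfl⟩ := Nat.exists_eq_add_of_le ((Nat.le_of_lt_succ (Finset.mem_range.1 hi)).trans h2)
  have h3 := h.reg.fr.ne_zero l₀
  rw [show z l₀ ^ (i + j) * ((q.coeff i : F) * (z l₁ / z l₀) ^ i) =
    q.coeff i * (z l₁ ^ i * z l₀ ^ j) by rw [div_pow, pow_add]; field_simp, map_mul, map_mul,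
    map_pow, map_pow, pow_add]
  exact (mul_le_of_le_one_left' (val_le (hW _ (q.coeff i).2))).trans
    (mul_le_mul' (pow_le_pow_left' h1 i) (pow_le_pow_left' h0 j))

end Last

end Crest.Agent.X262.Qt
end
end

-- ▼ part X262/Qt/Rf

/-!
# Row 262, QT (helper42), part 3: the residue field of `ord_O`

* `mem_kf`, `rho` : the residue field of `O` as a subfield of the residue field of `V`;
* `rfStmt : RfStmt`.
-/

set_option autoImplicit false

noncomputable section

namespace Crest.Agent.X262.Qt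

open Crest.Agent.X277 Crest.Agent.X277.BD Polynomial
open Crest.Agent.X277.BD.Cyc (Rf plV lnr_plV surj_plV)
open Crest.Agent.X277.Res.Out.Lb (Cen)

variable {k F : Type} [Field k] [Field F] [Algebra k F] {O : Subalgebra k F} {V : RZ k F} {u : F}

theorem r_mem_kf {x : F} (hx : x ∈ O) : (plV V).r x ∈ kf O V :=
  IntermediateField.subset_adjoin _ _ ⟨x, hx, rfl⟩

theorem mem_kf (h : Dom V.1 O) {y : Rf V} : y ∈ kf O V ↔ ∃ x ∈ O, (plV V).r x = y := by
  refine ⟨fun hy => ?_, fun ⟨x, hx, e⟩ => e ▸ r_mem_kf hx⟩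
  refine IntermediateField.adjoin_induction k (p := fun y _ => ∃ x ∈ O, (plV V).r x = y)
    (fun _ h => h) (fun c => ⟨_, O.algebraMap_mem c, lnr_plV V c⟩) ?_ ?_ ?_ hy
  · rintro _ _ - - ⟨x, hx, rfl⟩ ⟨y, hy, rfl⟩
    exact ⟨x + y, add_mem hx hy, Pl.r_add (h.le x hx) (h.le y hy)⟩
  · rintro _ - ⟨x, hx, rfl⟩
    by_cases h1 : (plV V).r x = 0
    · exact ⟨0, zero_mem _, by rw [h1, inv_zero, Pl.r_zero]⟩
    · exact ⟨x⁻¹, h.inv x hx (Pl.r_ne_zero_iff.1 h1), Pl.r_inv x⟩
  · rintro _ _ - - ⟨x, hx, rfl⟩ ⟨y, hy, rfl⟩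
    exact ⟨x * y, mul_mem hx hy, Pl.r_mul (h.le x hx) (h.le y hy)⟩

/-- the residue map of `O` -/
def rho (h : ∀ x ∈ O, x ∈ V.1) : O →+* kf O V where
  toFun x := ⟨(plV V).r x, r_mem_kf x.2⟩
  map_one' := Subtype.ext (plV V).r_one
  map_zero' := Subtype.ext (plV V).r_zero
  map_mul' x y := Subtype.ext (Pl.r_mul (h _ x.2) (h _ y.2))
  map_add' x y := Subtype.ext (Pl.r_add (h _ x.2) (h _ y.2))

theorem rho_surj (h : Dom V.1 O) : Function.Surjective (rho h.le) := fun y => by
  obtain ⟨x, hx, e⟩ := (mem_kf h).1 y.2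
  exact ⟨⟨x, hx⟩, Subtype.ext e⟩

theorem aeval_mem (h : ∀ x ∈ O, x ∈ V.1) (hu : u ∈ V.1) (q : O[X]) : aeval u q ∈ V.1 :=
  adj_le_val h (by rintro _ rfl; exact hu) _ (aeval_mem_adj q u)

theorem r_aeval (h : ∀ x ∈ O, x ∈ V.1) (hu : u ∈ V.1) (q : O[X]) :
    (plV V).r (aeval u q) = aeval ((plV V).r u) (q.map (rho h)) := by
  induction q using Polynomial.induction_on' with
  | add p q hp hq =>
    rw [map_add, Pl.r_add (aeval_mem h hu p) (aeval_mem h hu q), hp, hq, Polynomial.map_add,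
      map_add]
  | monomial m a =>
    rw [aeval_monomial, Polynomial.map_monomial, aeval_monomial, ← Pl.r_pow (p := plV V) hu]
    exact Pl.r_mul (p := plV V) (h _ a.2) (pow_mem hu m)

theorem Tr.transcendental (h : Dom V.1 O) (hu : u ∈ V.1) (ht : Tr O V.1 u) :
    Transcendental (kf O V) ((plV V).r u) := by
  rintro ⟨p, h0, h1⟩
  obtain ⟨q, rfl⟩ := Polynomial.map_surjective _ (rho_surj h) p
  rw [← r_aeval h.le hu, Pl.r_eq_zero (aeval_mem h.le hu q)] at h1
  refine h0 (Polynomial.ext fun i => Subtype.ext ?_)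
  rw [coeff_map]
  exact (Pl.r_eq_zero (p := plV V) (h.le _ (q.coeff i).2)).2 (ht q h1 i)

theorem adjoin_eq_top (h : ∀ x ∈ O, x ∈ V.1) (hc : Cen V.1 (adj O {u})) :
    IntermediateField.adjoin (kf O V) {(plV V).r u} = ⊤ := by
  have hu : u ∈ V.1 := hc.le u (mem_adj rfl)
  have h1 : ∀ a ∈ adj O {u}, (plV V).r a ∈ IntermediateField.adjoin (kf O V) {(plV V).r u} := by
    intro a ha
    obtain ⟨q, rfl⟩ := exists_aeval ha
    rw [r_aeval h hu]
    exact IntermediateField.algebra_adjoin_le_adjoin _ _ (aeval_mem_adjoin_singleton _ _)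
  refine eq_top_iff.2 fun y _ => ?_
  obtain ⟨x, rfl⟩ := surj_plV V y
  obtain ⟨b, hb, h2, h3⟩ := hc.loc x x.2
  rw [← Pl.r_coe, ← mul_div_cancel_left₀ (x : F) (ne_of_val h2),
    Pl.r_div (p := plV V) (hc.le _ h3) h2]
  exact div_mem (h1 _ h3) (h1 _ hb)

theorem rfStmt : RfStmt := by
  intro k F _ _ _ O t V h
  have hu : t 1 / t 0 ∈ V.1 := h.cen.le _ (mem_adj rfl)
  let e : RatFunc (kf O V) ≃ₐ[kf O V] Rf V :=
    ((RatFunc.algEquivOfTranscendental _ (h.tr.transcendental h.dom hu)).trans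
      (IntermediateField.equivOfEq (adjoin_eq_top h.dom.le h.cen))).trans
      IntermediateField.topEquiv
  refine ⟨e.symm.restrictScalars k, fun x => e.symm.commutes x, e.symm_apply_eq.2 ?_⟩
  exact (RatFunc.algEquivOfTranscendental_X _ (h.tr.transcendental h.dom hu)).symm

end Crest.Agent.X262.Qt
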