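import Crest.Agent.X277.Res.OutLabA

/-!
# Row 262, QT (helper42), part 0: local rings at the centre of a valuation

* `lv A V`     : the localisation of `A` at the centre of `V`;
* `Dom V O`    : `V` dominates `O`;
* `adj A U`    : the algebra generated by `A` and `U`;
* `Dual O z d` : `z` is a family of elements of `O` with dual derivations `d` which preserve `O`;
* `Reg O z S`  : moreover the `z l`, `l ∈ S`, generate the maximal ideal of `O`;
* `Tr O V u`   : the residue of `u` is transcendental over the residue field of `O`;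
* `Ord2 O t V` : `O` is regular of dimension two with parameters `t`, and `V = ord_O`.
-/

set_option autoImplicit false

noncomputable section

namespace Crest.Agent.X262.Qt

open Crest.Agent.X277.Res.Out Crest.Agent.X277.Res.Out.Lb

variable {k F : Type} [Field k] [Field F] [Algebra k F]

/-- the localisation of `A` at the centre of `V` -/
def lv (A : Subalgebra k F) (V : ValuationSubring F) : Subalgebra k F where
  carrier := {x | ∃ b ∈ A, V.valuation b = 1 ∧ b * x ∈ A}
  mul_mem' := by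
    rintro a a' ⟨b, hb, h1, h2⟩ ⟨b', hb', h3, h4⟩
    refine ⟨b * b', mul_mem hb hb', by rw [map_mul, h1, h3, one_mul], ?_⟩
    rw [mul_mul_mul_comm]
    exact mul_mem h2 h4
  add_mem' := by
    rintro a a' ⟨b, hb, h1, h2⟩ ⟨b', hb', h3, h4⟩
    refine ⟨b * b', mul_mem hb hb', by rw [map_mul, h1, h3, one_mul], ?_⟩
    rw [show b * b' * (a + a') = b' * (b * a) + b * (b' * a') by ring]
    exact add_mem (mul_mem hb' h2) (mul_mem hb h4)
  algebraMap_mem' c := ⟨1, one_mem _, map_one _, by rw [one_mul]; exact A.algebraMap_mem c⟩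

/-- `V` dominates `O` -/
structure Dom (V : ValuationSubring F) (O : Subalgebra k F) : Prop where
  le : ∀ x ∈ O, x ∈ V
  inv : ∀ x ∈ O, V.valuation x = 1 → x⁻¹ ∈ O

/-- the algebra generated by `A` and `U` -/
def adj (A : Subalgebra k F) (U : Set F) : Subalgebra k F := Algebra.adjoin k ((A : Set F) ∪ U)

/-- elements of `O` with dual derivations which preserve `O` -/
structure Dual (O : Subalgebra k F) {n : ℕ} (z : Fin n → F) (d : Fin n → Derivation k F F) :
    Prop where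
  mem : ∀ l, z l ∈ O
  pres : ∀ l, ∀ x ∈ O, d l x ∈ O
  dual : ∀ l j, d l (z j) = if l = j then 1 else 0

/-- a frame of `O` -/
def Fr (O : Subalgebra k F) {n : ℕ} (z : Fin n → F) : Prop := ∃ d, Dual O z d

/-- a frame whose members number `l ∈ S` generate the maximal ideal -/
structure Reg (O : Subalgebra k F) {n : ℕ} (z : Fin n → F) (S : Finset (Fin n)) : Prop where
  fr : Fr O z
  van : ∀ l ∈ S, Van O (z l)
  gen : ∀ x, Van O x → x ∈ Submodule.span O (z '' S)

/-- the residue of `u` is transcendental over the residue field of `O` -/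
def Tr (O : Subalgebra k F) (V : ValuationSubring F) (u : F) : Prop :=
  ∀ q : Polynomial O, V.valuation (Polynomial.aeval u q) < 1 →
    ∀ i, V.valuation (q.coeff i : F) < 1

/-- `O` is a regular local ring of dimension two with parameters `t 0, t 1`, and `V` is the
valuation ring of the exceptional divisor of the blow-up of its closed point -/
structure Ord2 (O : Subalgebra k F) (t : Fin 2 → F) (V : ValuationSubring F) : Prop where
  dom : Dom V O
  coords : Coords O t
  cen : Cen V (adj O {t 1 / t 0})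
  tr : Tr O V (t 1 / t 0)

variable {A B O O' : Subalgebra k F} {V W : ValuationSubring F} {x y : F} {U U' : Set F}

/-! ### localisation -/


theorem ne_of_val (h : V.valuation x = 1) : x ≠ 0 := fun h0 => by simp [h0] at h

theorem le_lv (A : Subalgebra k F) (V : ValuationSubring F) : A ≤ lv A V :=
  fun _ hx => ⟨1, one_mem _, map_one _, by rwa [one_mul]⟩

theorem lv_le (h : ∀ x ∈ A, x ∈ V) : ∀ x ∈ lv A V, x ∈ V := by
  rintro x ⟨b, -, h1, h2⟩
  have h3 := val_le (h _ h2)
  rw [map_mul, h1, one_mul] at h3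
  exact (V.valuation_le_one_iff _).1 h3

theorem inv_mem_lv (hx : x ∈ A) (h : V.valuation x = 1) : x⁻¹ ∈ lv A V :=
  ⟨x, hx, h, by rw [mul_inv_cancel₀ (ne_of_val h)]; exact one_mem _⟩

theorem dom_lv (h : ∀ x ∈ A, x ∈ V) : Dom V (lv A V) := by
  refine ⟨lv_le h, ?_⟩
  rintro x ⟨b, hb, h1, h2⟩ hx
  refine ⟨b * x, h2, by rw [map_mul, h1, hx, one_mul], ?_⟩
  rwa [mul_assoc, mul_inv_cancel₀ (ne_of_val hx), mul_one]

theorem lv_mono (h : A ≤ B) : lv A V ≤ lv B V :=
  fun _ ⟨b, hb, h1, h2⟩ => ⟨b, h hb, h1, h h2⟩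

namespace Dom

theorem lv_le (h : Dom V O) (hA : A ≤ O) : lv A V ≤ O := by
  rintro x ⟨b, hb, h1, h2⟩
  rw [← inv_mul_cancel_left₀ (ne_of_val h1) x]
  exact mul_mem (h.inv b (hA hb) h1) (hA h2)

theorem lv_eq (h : Dom V O) : lv O V = O := le_antisymm (h.lv_le le_rfl) (le_lv _ _)

theorem un_iff (h : Dom V O) (hx : x ∈ O) : Un O x ↔ V.valuation x = 1 :=
  ⟨val_un h.le, fun h1 => ⟨ne_of_val h1, hx, h.inv x hx h1⟩⟩

theorem van_iff (h : Dom V O) : Van O x ↔ x ∈ O ∧ V.valuation x < 1 :=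
  and_congr_right fun hx => by
    rw [h.un_iff hx]
    exact ⟨fun h1 => lt_of_le_of_ne (val_le (h.le x hx)) h1, ne_of_lt⟩

theorem van (h : Dom V O) (hx : x ∈ O) (h1 : V.valuation x < 1) : Van O x := h.van_iff.2 ⟨hx, h1⟩

theorem lt (h : Dom V O) (hx : Van O x) : V.valuation x < 1 := (h.van_iff.1 hx).2

theorem div_mem (h : Dom V O) (hx : x ∈ O) (hy : y ∈ O) (h1 : V.valuation y = 1) : x / y ∈ O := by
  rw [div_eq_mul_inv]
  exact mul_mem hx (h.inv y hy h1)

theorem isLocalRing (h : Dom V O) : IsLocalRing O := by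
  refine IsLocalRing.of_nonunits_add fun a b ha hb => ?_
  rw [← van_iff_nonunit] at ha hb ⊢
  exact h.van (a + b).2 (V.valuation.map_add_lt (h.lt ha) (h.lt hb))

theorem of_le (h : Dom V O) (hO : Cen V O) : ∀ x ∈ V, x ∈ O :=
  fun x hx => h.lv_le le_rfl (hO.loc x hx)

end Dom

theorem lv_eq_of_le (hA : ∀ x ∈ A, x ∈ V) (h1 : A ≤ B) (h2 : B ≤ lv A V) : lv B V = lv A V :=
  le_antisymm ((dom_lv hA).lv_le h2) (lv_mono h1)

theorem cen_iff : Cen V A ↔ (∀ x ∈ A, x ∈ V) ∧ ∀ x ∈ V, x ∈ lv A V :=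
  ⟨fun h => ⟨h.le, h.loc⟩, fun h => ⟨h.1, h.2⟩⟩


/-- a valuation ring which contains `lv A V` has a smaller centre -/
theorem lv_le_lv (hA : ∀ x ∈ A, x ∈ V) (h : ∀ x ∈ lv A V, x ∈ W) : lv A V ≤ lv A W := by
  rintro x ⟨b, hb, h2, h3⟩
  exact ⟨b, hb, val_un h (((dom_lv hA).un_iff (le_lv A V hb)).2 h2), h3⟩

theorem lv_lv (hA : ∀ x ∈ A, x ∈ V) (h : ∀ x ∈ lv A V, x ∈ W) : lv (lv A V) W = lv A W :=
  lv_eq_of_le (fun x hx => h x (le_lv A V hx)) (le_lv A V) (lv_le_lv hA h)

/-- the inclusion as an algebra -/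
instance algLv (A : Subalgebra k F) (V : ValuationSubring F) : Algebra A (lv A V) :=
  (Subalgebra.inclusion (le_lv A V)).toRingHom.toAlgebra

instance towerLv (A : Subalgebra k F) (V : ValuationSubring F) : IsScalarTower k A (lv A V) :=
  IsScalarTower.of_algebraMap_eq fun _ => rfl

theorem isLocalization_lv (h : ∀ x ∈ A, x ∈ V) :
    haveI := isPrime_ctr h
    IsLocalization.AtPrime (lv A V) (ctr V A) := by
  refine ⟨fun ⟨b, hb⟩ => ?_, fun x => ?_, fun {a b} h1 => ⟨1, ?_⟩⟩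
  · exact (un_iff_isUnit _).1
      (((dom_lv h).un_iff (le_lv A V b.2)).2 (val_eq_one_of_notMem h hb))
  · obtain ⟨b, hb, h1, h2⟩ := x.2
    exact ⟨(⟨_, h2⟩, ⟨⟨b, hb⟩, fun h' => ((mem_ctr h).1 h').ne h1⟩), Subtype.ext (mul_comm _ _)⟩
  · have h2 : (a : F) = b := congrArg (fun z : lv A V => (z : F)) h1
    rw [Subtype.ext h2]

theorem isNoetherianRing_lv [IsNoetherianRing A] (h : ∀ x ∈ A, x ∈ V) :
    IsNoetherianRing (lv A V) :=
  haveI := isPrime_ctr h
  haveI := isLocalization_lv h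
  IsLocalization.isNoetherianRing (ctr V A).primeCompl _ inferInstance

theorem essFiniteType_lv [Algebra.FiniteType k A] (h : ∀ x ∈ A, x ∈ V) :
    Algebra.EssFiniteType k (lv A V) :=
  haveI := isPrime_ctr h
  haveI := isLocalization_lv h
  haveI := Algebra.EssFiniteType.of_isLocalization (lv A V) (ctr V A).primeCompl
  Algebra.EssFiniteType.comp k A _

/-! ### adjunction -/

theorem le_adj (A : Subalgebra k F) (U : Set F) : A ≤ adj A U :=
  fun _ hx => Algebra.subset_adjoin (Or.inl hx)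

theorem mem_adj (hx : x ∈ U) : x ∈ adj A U := Algebra.subset_adjoin (Or.inr hx)

theorem adj_le (h1 : A ≤ B) (h2 : ∀ x ∈ U, x ∈ B) : adj A U ≤ B :=
  Algebra.adjoin_le fun x hx => hx.elim (fun h => h1 h) (h2 x)

theorem adj_mono (h1 : A ≤ B) (h2 : U ⊆ U') : adj A U ≤ adj B U' :=
  adj_le (h1.trans (le_adj _ _)) fun _ hx => mem_adj (h2 hx)

theorem adj_empty : adj A ∅ = A := le_antisymm (adj_le le_rfl fun _ h => h.elim) (le_adj _ _)

theorem adj_adj : adj (adj A U) U' = adj A (U ∪ U') :=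
  le_antisymm (adj_le (adj_mono le_rfl Set.subset_union_left) fun _ h => mem_adj (Or.inr h))
    (adj_le ((le_adj _ _).trans (le_adj _ _)) fun _ h =>
      h.elim (fun h => le_adj _ _ (mem_adj h)) mem_adj)

theorem adj_induction {p : F → Prop} (h1 : ∀ x ∈ A, p x) (h2 : ∀ x ∈ U, p x)
    (h3 : ∀ x ∈ adj A U, ∀ y ∈ adj A U, p x → p y → p (x + y))
    (h4 : ∀ x ∈ adj A U, ∀ y ∈ adj A U, p x → p y → p (x * y)) (hx : x ∈ adj A U) : p x :=
  Algebra.adjoin_induction (p := fun x _ => p x) (fun x hx => hx.elim (h1 x) (h2 x))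
    (fun c => h1 _ (A.algebraMap_mem c)) (fun x y hx hy => h3 x hx y hy)
    (fun x y hx hy => h4 x hx y hy) hx

theorem adj_le_val (h1 : ∀ x ∈ A, x ∈ V) (h2 : ∀ x ∈ U, x ∈ V) : ∀ x ∈ adj A U, x ∈ V :=
  fun _ hx => adj_induction h1 h2 (fun _ _ _ _ => add_mem) (fun _ _ _ _ => mul_mem) hx

theorem lv_adj_lv (h1 : ∀ x ∈ A, x ∈ V) (h2 : ∀ x ∈ U, x ∈ V) :
    lv (adj (lv A V) U) V = lv (adj A U) V :=
  lv_eq_of_le (adj_le_val h1 h2) (adj_mono (le_lv _ _) le_rfl)
    (adj_le (lv_mono (le_adj _ _)) fun _ hx => le_lv _ _ (mem_adj hx))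

theorem finiteType_adj [Algebra.FiniteType k A] (hU : U.Finite) :
    Algebra.FiniteType k (adj A U) := by
  obtain ⟨s, hs⟩ := (Subalgebra.fg_iff_finiteType A).2 inferInstance
  have h1 : adj A U = Algebra.adjoin k ((s : Set F) ∪ U) := by
    rw [adj, Algebra.adjoin_union, Algebra.adjoin_union, hs, Algebra.adjoin_eq]
  rw [h1, ← Subalgebra.fg_iff_finiteType]
  exact Subalgebra.fg_def.2 ⟨_, s.finite_toSet.union hU, rfl⟩

theorem aeval_mem_adj (q : Polynomial O) (u : F) : Polynomial.aeval u q ∈ adj O {u} := by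
  rw [Polynomial.aeval_eq_sum_range]
  refine sum_mem fun i _ => ?_
  rw [Algebra.smul_def]
  exact mul_mem (le_adj _ _ (q.coeff i).2) (pow_mem (mem_adj (Set.mem_singleton u)) _)

theorem exists_aeval {u : F} (hx : x ∈ adj O {u}) :
    ∃ q : Polynomial O, Polynomial.aeval u q = x := by
  refine adj_induction (p := fun x => ∃ q : Polynomial O, Polynomial.aeval u q = x)
    (fun x hx => ⟨Polynomial.C ⟨x, hx⟩, by simp⟩) ?_ ?_ ?_ hx
  · rintro _ rfl
    exact ⟨Polynomial.X, by simp⟩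
  · rintro _ _ _ _ ⟨p, rfl⟩ ⟨q, rfl⟩
    exact ⟨p + q, map_add _ _ _⟩
  · rintro _ _ _ _ ⟨p, rfl⟩ ⟨q, rfl⟩
    exact ⟨p * q, map_mul _ _ _⟩

theorem der_adj {D : Derivation k F F} (h1 : ∀ x ∈ A, D x ∈ adj A U)
    (h2 : ∀ x ∈ U, D x ∈ adj A U) : ∀ x ∈ adj A U, D x ∈ adj A U := by
  intro x hx
  refine adj_induction (p := fun x => D x ∈ adj A U) h1 h2 (fun x _ y _ hx hy => ?_)
    (fun x hx y hy hx' hy' => ?_) hx
  · rw [map_add]
    exact add_mem hx hy
  · rw [Derivation.leibniz]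
    exact add_mem (mul_mem hx hy') (mul_mem hy hx')

theorem der_lv {D : Derivation k F F} (h : ∀ x ∈ A, D x ∈ lv A V) :
    ∀ x ∈ lv A V, D x ∈ lv A V := by
  rintro x ⟨b, hb, h1, h2⟩
  have h3 : D x = b⁻¹ * (D (b * x) - x * D b) := by
    rw [Derivation.leibniz, smul_eq_mul, smul_eq_mul, add_sub_cancel_right,
      inv_mul_cancel_left₀ (ne_of_val h1)]
  rw [h3]
  exact mul_mem (inv_mem_lv hb h1) (sub_mem (h _ h2) (mul_mem ⟨b, hb, h1, h2⟩ (h _ hb)))

/-! ### spans -/

theorem mul_mem_span {s : Set F} (hx : x ∈ O) (hy : y ∈ Submodule.span O s) :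
    x * y ∈ Submodule.span O s := Submodule.smul_mem _ (⟨x, hx⟩ : O) hy

theorem span_ind {s : Set F} {p : F → Prop} (h0 : p 0) (h1 : ∀ x ∈ s, p x)
    (h2 : ∀ x y, p x → p y → p (x + y)) (h3 : ∀ c ∈ O, ∀ x, p x → p (c * x))
    (hx : x ∈ Submodule.span O s) : p x :=
  Submodule.span_induction (p := fun x _ => p x) h1 h0 (fun x y _ _ => h2 x y)
    (fun (c : O) x _ => h3 c c.2 x) hx

theorem span_le_span {s s' : Set F} (h : O ≤ O') (hs : ∀ x ∈ s, x ∈ Submodule.span O' s')
    (hx : x ∈ Submodule.span O s) : x ∈ Submodule.span O' s' :=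
  span_ind (p := fun x => x ∈ Submodule.span O' s') (zero_mem _) hs (fun _ _ => add_mem)
    (fun _ hc _ => mul_mem_span (h hc)) hx

theorem div_mem_of_span {s : Set F} (h : O ≤ O') (hs : ∀ x ∈ s, x / y ∈ O')
    (hx : x ∈ Submodule.span O s) : x / y ∈ O' :=
  span_ind (p := fun x => x / y ∈ O') (by rw [zero_div]; exact zero_mem _) hs
    (fun _ _ h1 h2 => by rw [add_div]; exact add_mem h1 h2)
    (fun _ hc _ h1 => by rw [mul_div_assoc]; exact mul_mem (h hc) h1) hx

/-! ### frames -/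

variable {n : ℕ} {z : Fin n → F} {d : Fin n → Derivation k F F} {S : Finset (Fin n)}

theorem Dual.self (h : Dual O z d) (l : Fin n) : d l (z l) = 1 := by rw [h.dual, if_pos rfl]

theorem Dual.of_ne (h : Dual O z d) {l j : Fin n} (hl : l ≠ j) : d l (z j) = 0 := by
  rw [h.dual, if_neg hl]

theorem Dual.lv (h : Dual A z d) (V : ValuationSubring F) : Dual (lv A V) z d :=
  ⟨fun l => le_lv _ _ (h.mem l), fun l => der_lv fun x hx => le_lv _ _ (h.pres l x hx), h.dual⟩

theorem Fr.mem (h : Fr O z) (l : Fin n) : z l ∈ O := h.choose_spec.mem l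

theorem Fr.lv (h : Fr A z) (V : ValuationSubring F) : Fr (lv A V) z :=
  h.imp fun _ hd => hd.lv V

theorem Fr.ne_zero (h : Fr O z) (l : Fin n) : z l ≠ 0 := fun h0 => by
  have h1 := h.choose_spec.self l
  rw [h0, map_zero] at h1
  exact zero_ne_one h1

/-- exchange of one coordinate -/
theorem Dual.exch (h : Dual O z d) {l : Fin n} {f : F} (hf : f ∈ O) (hu : Un O (d l f)) :
    Fr O (Function.update z l f) := by
  refine ⟨fun j => if j = l then (d l f)⁻¹ • d l else d j - (d j f * (d l f)⁻¹) • d l,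
    fun j => ?_, fun j x hx => ?_, fun j i => ?_⟩
  · by_cases hj : j = l
    · rwa [hj, Function.update_self]
    · rw [Function.update_of_ne hj]
      exact h.mem j
  · split_ifs
    · exact mul_mem hu.2.2 (h.pres l x hx)
    · exact sub_mem (h.pres j x hx) (mul_mem (mul_mem (h.pres j f hf) hu.2.2) (h.pres l x hx))
  · have h0 := hu.1
    by_cases hj : j = l <;> by_cases hi : i = l
    · subst hj hi
      simp [h0]
    · subst hj
      simp [Function.update_of_ne hi, h.of_ne (Ne.symm hi), Ne.symm hi]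
    · subst hi
      simp [hj, h0]
    · simp [hj, Function.update_of_ne hi, h.of_ne (Ne.symm hi), h.dual]

/-- the chart of the blow-up of `(z l₀, z l₁)` -/
theorem Fr.blow (h : Fr O z) {l₀ l₁ : Fin n} (hl : l₀ ≠ l₁) :
    Fr (adj O {z l₁ / z l₀}) (Function.update z l₁ (z l₁ / z l₀)) := by
  have h0 := h.ne_zero l₀
  obtain ⟨d, h⟩ := h
  have hu : z l₁ / z l₀ ∈ adj O {z l₁ / z l₀} := mem_adj rfl
  let D : Fin n → Derivation k F F := fun j =>
    if j = l₁ then z l₀ • d l₁ else if j = l₀ then d l₀ + (z l₁ / z l₀) • d l₁ else d j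
  have h1 : ∀ j, D j (z l₁ / z l₀) = if j = l₁ then 1 else 0 := by
    intro j
    have h2 : ∀ e : Derivation k F F, e (z l₁ / z l₀) =
        (z l₀)⁻¹ * (e (z l₁) - z l₁ / z l₀ * e (z l₀)) := fun e => by
      rw [Derivation.leibniz_div]
      simp only [smul_eq_mul]
      field_simp
    rw [h2]
    by_cases hj : j = l₁
    · simp [D, hj, h.dual, hl.symm, h0]
    · by_cases hj' : j = l₀
      · simp [D, hj', h.dual, hl, hl.symm]
      · simp [D, hj, hj', h.dual]
  refine ⟨D, fun j => ?_, fun j => der_adj (fun x hx => ?_) ?_, fun j i => ?_⟩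
  · by_cases hj : j = l₁
    · rwa [hj, Function.update_self]
    · rw [Function.update_of_ne hj]
      exact le_adj _ _ (h.mem j)
  · simp only [D]
    split_ifs
    · exact le_adj _ _ (mul_mem (h.mem l₀) (h.pres l₁ x hx))
    · exact add_mem (le_adj _ _ (h.pres l₀ x hx)) (mul_mem hu (le_adj _ _ (h.pres l₁ x hx)))
    · exact le_adj _ _ (h.pres j x hx)
  · rintro _ rfl
    rw [h1]
    split_ifs
    · exact one_mem _
    · exact zero_mem _
  · by_cases hi : i = l₁
    · rw [hi, Function.update_self, h1]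
    · rw [Function.update_of_ne hi]
      by_cases hj : j = l₁
      · simp [D, hj, h.dual, Ne.symm hi]
      · by_cases hj' : j = l₀
        · simp [D, hj', h.dual, hl, Ne.symm hi]
        · simp [D, hj, hj', h.dual]

/-- different coordinates do not divide each other -/
theorem Fr.div_notMem (h : Fr O z) {l j : Fin n} (hl : Van O (z l)) (hlj : l ≠ j) :
    z j / z l ∉ O := by
  have h0 := h.ne_zero l
  obtain ⟨d, h⟩ := h
  intro hm
  have h2 := h.self j
  rw [← div_mul_cancel₀ (z j) h0, Derivation.leibniz, h.of_ne hlj.symm, smul_zero, zero_add,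
    smul_eq_mul] at h2
  exact hl.2 (un_of_mul_eq_one (h.mem l) (h.pres j _ hm) h2)

theorem Reg.coords (h : Reg O z S) {c : ℕ} {σ : Fin c → Fin n} (hσ : Function.Injective σ)
    (hS : ∀ l, l ∈ S ↔ l ∈ Set.range σ) : Coords O (z ∘ σ) := by
  obtain ⟨d, hd⟩ := h.fr
  refine ⟨fun l => h.van _ ((hS _).2 ⟨l, rfl⟩), fun x hx => ?_,
    d ∘ σ, fun l => hd.pres _, fun l j => ?_⟩
  · have h1 : z '' S = Set.range (z ∘ σ) := by
      rw [Set.range_comp]
      exact congrArg _ (Set.ext hS)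
    obtain ⟨r, hr⟩ := (Submodule.mem_span_range_iff_exists_fun O).1 (h1 ▸ h.gen x hx)
    exact ⟨fun l => r l, fun l => (r l).2, hr.symm⟩
  · simp only [Function.comp_apply, hd.dual, hσ.eq_iff]


theorem Reg.exists_coords (h : Reg O z S) :
    ∃ σ : Fin S.card → Fin n, Function.Injective σ ∧ (∀ l, l ∈ S ↔ l ∈ Set.range σ) ∧
      Coords O (z ∘ σ) := by
  have h1 : ∀ l, l ∈ S ↔ l ∈ Set.range (S.orderEmbOfFin rfl) := fun l => by
    rw [Finset.range_orderEmbOfFin, Finset.mem_coe]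
  exact ⟨_, (S.orderEmbOfFin rfl).injective, h1, h.coords (S.orderEmbOfFin rfl).injective h1⟩

end Crest.Agent.X262.Qt
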